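import Vale.Agent.P181.BAL.Defs

/-!
# P181, BAL: [B1], the coefficients of `s ↦ n(s) x`
-/

set_option autoImplicit false

open scoped TensorProduct

namespace Vale.Agent.P181.BAL.H935

open Vale.Agent.P181 Vale.Agent.P181.H280 Finset

universe u

/-- A family of linear maps which is pointwise polynomial is polynomial with linear
coefficients. -/
theorem lin_of_pt {M M' : Type*} [AddCommMonoid M] [Module ℂ M] [AddCommMonoid M'] [Module ℂ M']
    (N : ℕ) (F : ℂ → (M →ₗ[ℂ] M'))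
    (h : ∀ x, ∃ y : ℕ → M', ∀ s, F s x = ∑ i ∈ range (N + 1), s ^ i • y i) :
    ∃ D : ℕ → (M →ₗ[ℂ] M'), ∀ s x, F s x = ∑ i ∈ range (N + 1), s ^ i • D i x := by
  set V : Matrix (Fin (N + 1)) (Fin (N + 1)) ℂ :=
    Matrix.vandermonde (fun j : Fin (N + 1) => ((j : ℕ) : ℂ)) with hV
  have hdet : V.det ≠ 0 := by
    rw [hV, Matrix.det_vandermonde_ne_zero_iff]
    intro i j hij
    have h0 : ((i : ℕ) : ℂ) = ((j : ℕ) : ℂ) := hij
    exact Fin.ext (by exact_mod_cast h0)
  have hinv : V⁻¹ * V = 1 := Matrix.nonsing_inv_mul V (Ne.isUnit hdet)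
  refine ⟨fun i => ∑ j : Fin (N + 1),
    (if hi : i < N + 1 then V⁻¹ ⟨i, hi⟩ j else 0) • F ((j : ℕ) : ℂ), ?_⟩
  intro s x
  obtain ⟨y, hy⟩ := h x
  rw [hy s]
  apply Finset.sum_congr rfl
  intro i hi
  rw [Finset.mem_range] at hi
  congr 1
  rw [LinearMap.sum_apply]
  have h1 : ∀ j : Fin (N + 1),
      ((if hi : i < N + 1 then V⁻¹ ⟨i, hi⟩ j else 0) • F ((j : ℕ) : ℂ)) x =
      ∑ k : Fin (N + 1), (V⁻¹ ⟨i, hi⟩ j * V j k) • y (k : ℕ) := by
    intro j
    rw [dif_pos hi, LinearMap.smul_apply, hy, Finset.sum_range, Finset.smul_sum]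
    apply Finset.sum_congr rfl
    intro k _
    rw [smul_smul, hV, Matrix.vandermonde_apply]
  rw [Finset.sum_congr rfl (fun j _ => h1 j), Finset.sum_comm]
  have h2 : ∀ k : Fin (N + 1), ∑ j : Fin (N + 1), (V⁻¹ ⟨i, hi⟩ j * V j k) • y (k : ℕ) =
      (if (⟨i, hi⟩ : Fin (N + 1)) = k then (1 : ℂ) else 0) • y (k : ℕ) := by
    intro k
    rw [← Finset.sum_smul]
    congr 1
    have h3 := congrFun (congrFun hinv ⟨i, hi⟩) k
    rw [Matrix.mul_apply, Matrix.one_apply] at h3
    exact h3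
  rw [Finset.sum_congr rfl (fun k _ => h2 k)]
  simp only [ite_smul, one_smul, zero_smul]
  rw [Finset.sum_ite_eq, if_pos (Finset.mem_univ _)]

/-- The symmetric power of a polynomial family is pointwise polynomial. -/
theorem sym_line {M : Type u} [AddCommGroup M] [Module ℂ M] (b N : ℕ) (F : ℂ → (M →ₗ[ℂ] M))
    (D : ℕ → (M →ₗ[ℂ] M)) (h : ∀ s x, F s x = ∑ i ∈ range (N + 1), s ^ i • D i x)
    (x : Sym[ℂ]^b M) :
    ∃ y : ℕ → Sym[ℂ]^b M, ∀ s, symMap b (F s) x = ∑ i ∈ range (b * N + 1), s ^ i • y i := by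
  have hx : x ∈ Submodule.span ℂ (Set.range (SymmetricPower.tprod ℂ (ι := Fin b) (M := M))) := by
    rw [SymmetricPower.span_tprod_eq_top ℂ (Fin b) M]
    trivial
  induction hx using Submodule.span_induction with
  | mem x hx =>
    obtain ⟨v, rfl⟩ := hx
    refine ⟨fun i => ∑ r ∈ (Fintype.piFinset (fun _ : Fin b => range (N + 1))) with
      ∑ j, r j = i, SymmetricPower.tprod ℂ (fun j => D (r j) (v j)), ?_⟩
    intro s
    rw [symMap_tprod]
    have h1 : (fun j => F s (v j)) = fun j => ∑ k ∈ range (N + 1), s ^ k • D k (v j) := by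
      funext j
      exact h s (v j)
    rw [h1, MultilinearMap.map_sum_finset]
    have h2 : ∀ r ∈ Fintype.piFinset (fun _ : Fin b => range (N + 1)),
        SymmetricPower.tprod ℂ (fun j => s ^ r j • D (r j) (v j)) =
        s ^ (∑ j, r j) • SymmetricPower.tprod ℂ (fun j => D (r j) (v j)) := by
      intro r _
      rw [MultilinearMap.map_smul_univ, Finset.prod_pow_eq_pow_sum]
    rw [Finset.sum_congr rfl h2]
    have h3 : ∀ r ∈ Fintype.piFinset (fun _ : Fin b => range (N + 1)),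
        ∑ j, r j ∈ range (b * N + 1) := by
      intro r hr
      rw [Fintype.mem_piFinset] at hr
      rw [Finset.mem_range]
      have h4 : ∑ j, r j ≤ ∑ _j : Fin b, N := by
        apply Finset.sum_le_sum
        intro j _
        have := Finset.mem_range.1 (hr j)
        omega
      rw [Finset.sum_const, Finset.card_univ, Fintype.card_fin, smul_eq_mul] at h4
      omega
    rw [← Finset.sum_fiberwise_of_maps_to h3]
    apply Finset.sum_congr rfl
    intro i _
    rw [Finset.smul_sum]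
    apply Finset.sum_congr rfl
    intro r hr
    rw [(Finset.mem_filter.1 hr).2]
  | zero =>
    refine ⟨fun _ => 0, fun s => ?_⟩
    rw [map_zero]
    simp
  | add x y _ _ hx hy =>
    obtain ⟨p, hp⟩ := hx
    obtain ⟨q, hq⟩ := hy
    refine ⟨fun i => p i + q i, fun s => ?_⟩
    rw [map_add, hp, hq, ← Finset.sum_add_distrib]
    apply Finset.sum_congr rfl
    intro i _
    rw [smul_add]
  | smul c x _ hx =>
    obtain ⟨p, hp⟩ := hx
    refine ⟨fun i => c • p i, fun s => ?_⟩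
    rw [map_smul, hp, Finset.smul_sum]
    apply Finset.sum_congr rfl
    intro i _
    rw [smul_comm]

/-- The symmetric power of a polynomial family of linear maps. -/
theorem sym_lin {M : Type u} [AddCommGroup M] [Module ℂ M] (b N : ℕ) (F : ℂ → (M →ₗ[ℂ] M))
    (h : ∃ D : ℕ → (M →ₗ[ℂ] M), ∀ s x, F s x = ∑ i ∈ range (N + 1), s ^ i • D i x) :
    ∃ D : ℕ → (Sym[ℂ]^b M →ₗ[ℂ] Sym[ℂ]^b M), ∀ s x,
      symMap b (F s) x = ∑ i ∈ range (b * N + 1), s ^ i • D i x := by
  obtain ⟨D, hD⟩ := h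
  exact lin_of_pt (b * N) (fun s => symMap b (F s)) (fun x => sym_line b N F D hD x)

/-- **(B1)** -/
theorem line : Line := by
  intro a b k
  have h1 : ∃ D : ℕ → ((Fin (k + 2) → ℂ) →ₗ[ℂ] (Fin (k + 2) → ℂ)), ∀ (s : ℂ) x,
      Matrix.toLin' (ns k s) x = ∑ i ∈ range (1 + 1), s ^ i • D i x := by
    refine ⟨fun i => if i = 0 then LinearMap.id else Matrix.toLin' (Matrix.single 1 0 1), ?_⟩
    intro s x
    rw [Finset.sum_range_succ, Finset.sum_range_one, pow_zero, one_smul, pow_one]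
    simp only [if_true, one_ne_zero, if_false]
    rw [LinearMap.id_apply, ns, map_add, LinearMap.add_apply, Matrix.toLin'_one,
      LinearMap.id_apply]
    congr 1
    have h2 : (Matrix.single 1 0 s : Matrix (Fin (k + 2)) (Fin (k + 2)) ℂ) =
        s • Matrix.single 1 0 1 := by
      rw [Matrix.smul_single, smul_eq_mul, mul_one]
    rw [h2, map_smul, LinearMap.smul_apply]
  have h2 := sym_lin a 1 (fun s => Matrix.toLin' (ns k s)) h1
  have h3 := sym_lin b (a * 1) (fun s => symMap a (Matrix.toLin' (ns k s))) h2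
  obtain ⟨D, hD⟩ := h3
  refine ⟨D, fun s x => ?_⟩
  have h4 := hD s x
  have h5 : b * (a * 1) = a * b := by ring
  rw [h5] at h4
  exact h4

end Vale.Agent.P181.BAL.H935
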